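import Vale.Agent.H39.M8.Defs

/-!
TASK M8-ALT (proved by helper40, backup seat; statements exactly as in the stub).
The alternating sums `altS G S = ∑ U ∈ S.powerset, (-1)^U.card * G (ptOf U)`
(Defs.lean) written out for `S = ∅`, `{i}`, `{i, j}`, `{i, j, k}` (distinct indices).

Sketch.  `Finset.powerset_empty`, `Finset.sum_singleton`; `Finset.sum_powerset_insert`
(`∑ t ∈ (insert a s).powerset, f t = ∑ t ∈ s.powerset, f t + ∑ t ∈ s.powerset, f (insert a t)` for
`a ∉ s`) once, twice, three times (`{i, j} = insert i {j}`, `{i, j, k} = insert i (insert j {k})`),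
with `Finset.card_insert_of_notMem` / `Finset.card_singleton` / `Finset.card_pair` for the signs.
-/

namespace Vale.Agent.H39

open Finset

theorem altS_empty {n : ℕ} (G : (Fin n → Bool) → ℝ) : altS G ∅ = G (ptOf ∅) := by
  simp [altS]

theorem altS_one {n : ℕ} (G : (Fin n → Bool) → ℝ) (i : Fin n) :
    altS G {i} = G (ptOf ∅) - G (ptOf {i}) := by
  have h : ({i} : Finset (Fin n)) = insert i ∅ := by simp
  unfold altS
  rw [h, Finset.sum_powerset_insert (Finset.notMem_empty i)]
  simp
  ring

theorem altS_two {n : ℕ} (G : (Fin n → Bool) → ℝ) (i j : Fin n) (hij : i ≠ j) :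
    altS G {i, j} = G (ptOf ∅) - G (ptOf {i}) - G (ptOf {j}) + G (ptOf {i, j}) := by
  have hj : ({j} : Finset (Fin n)) = insert j ∅ := by simp
  have hi : i ∉ ({j} : Finset (Fin n)) := by simp [hij]
  have hc : ({i, j} : Finset (Fin n)).card = 2 := Finset.card_pair hij
  unfold altS
  rw [Finset.sum_powerset_insert hi, hj, Finset.sum_powerset_insert (Finset.notMem_empty j),
    Finset.sum_powerset_insert (Finset.notMem_empty j)]
  simp [hc]
  ring

theorem altS_three {n : ℕ} (G : (Fin n → Bool) → ℝ) (i j k : Fin n)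
    (hij : i ≠ j) (hik : i ≠ k) (hjk : j ≠ k) :
    altS G {i, j, k} = G (ptOf ∅) - G (ptOf {i}) - G (ptOf {j}) - G (ptOf {k})
      + G (ptOf {i, j}) + G (ptOf {i, k}) + G (ptOf {j, k}) - G (ptOf {i, j, k}) := by
  have hk : ({k} : Finset (Fin n)) = insert k ∅ := by simp
  have hj : j ∉ ({k} : Finset (Fin n)) := by simp [hjk]
  have hi : i ∉ ({j, k} : Finset (Fin n)) := by simp [hij, hik]
  have hc2 : ({j, k} : Finset (Fin n)).card = 2 := Finset.card_pair hjk
  have hc2' : ({i, k} : Finset (Fin n)).card = 2 := Finset.card_pair hik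
  have hc2'' : ({i, j} : Finset (Fin n)).card = 2 := Finset.card_pair hij
  have hc3 : ({i, j, k} : Finset (Fin n)).card = 3 := by
    rw [Finset.card_insert_of_notMem hi, hc2]
  unfold altS
  rw [Finset.sum_powerset_insert hi, Finset.sum_powerset_insert hj,
    Finset.sum_powerset_insert hj, hk, Finset.sum_powerset_insert (Finset.notMem_empty k),
    Finset.sum_powerset_insert (Finset.notMem_empty k),
    Finset.sum_powerset_insert (Finset.notMem_empty k),
    Finset.sum_powerset_insert (Finset.notMem_empty k)]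
  simp [hc2, hc2', hc2'', hc3]
  ring

end Vale.Agent.H39
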