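import Vale.Agent.H39.M8.Defs

/-!
TASK M8-CDEG (proved by helper66; statement kept exactly; helper lemmas in this file, names
starting `cd_`).  Definitions (Defs.lean): `rowS q i = ∑ j, if i = j then 0 else q i j`,
`qOf x v i j = (1 - x j) * v i j`, `mOf x v = ∑ i, (1 - x i) * rowS (qOf x v) i`,
`rOf x v = ∑ i, (1 - x i) * (rowS (qOf x v) i)^2`.

Claim: `rOf x v ≤ (9 - s) * mOf x v`, `s = ∑ i, x i`, when every row `i` with `x i = 0` has
`rowS v i ≤ 8`.

Sketch.  It suffices to show for each `i`, with `δ = rowS (qOf x v) i`: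
`(1 - x i) * δ^2 ≤ (9 - s) * ((1 - x i) * δ)`, then `Finset.sum_le_sum` and `Finset.mul_sum`.
If `x i = 1` both sides are `0`.  If `x i = 0`: `δ ≥ 0` (a sum of numbers in `{0, 1}`), and
for `j ≠ i`: `v i j = x j + (1 - x j) * v i j` (if `x j = 1` then `v i j = v j i = 1` by `hsym`,
`hxv j i`; if `x j = 0` trivial), so
`rowS v i = ∑ j, (if i = j then 0 else x j) + δ = (s - x i) + δ = s + δ`
(`Finset.sum_add_distrib`, `Finset.sum_ite_eq`), hence `s + δ ≤ 8` by `hdeg i`, and
`δ^2 ≤ (9 - s) * δ` (`nlinarith`: `δ * (9 - s - δ) ≥ 0`).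
-/

namespace Vale.Agent.H39

open Finset

theorem core8_deg {n : ℕ} (x : Fin n → ℝ) (v : Fin n → Fin n → ℝ)
    (hx : ∀ i, x i = 0 ∨ x i = 1) (hv : ∀ i j, v i j = 0 ∨ v i j = 1)
    (hsym : ∀ i j, v i j = v j i) (hxv : ∀ i j, i ≠ j → x i = 1 → v i j = 1)
    (hdeg : ∀ i, x i = 0 → rowS v i ≤ 8) :
    rOf x v ≤ (9 - ∑ i : Fin n, x i) * mOf x v := by
  unfold rOf mOf
  rw [Finset.mul_sum]
  apply Finset.sum_le_sum
  intro i _
  rcases hx i with h0 | h1
  · have hd0 : 0 ≤ rowS (qOf x v) i := by
      unfold rowS qOf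
      apply Finset.sum_nonneg
      intro j _
      split_ifs
      · exact le_refl 0
      · rcases hx j with hj | hj <;> rcases hv i j with hvv | hvv <;> simp [hj, hvv]
    have hrow : rowS v i = (∑ j, x j) + rowS (qOf x v) i := by
      unfold rowS qOf
      have hpt : ∀ j, (if i = j then (0:ℝ) else v i j)
          = (if i = j then 0 else x j) + (if i = j then 0 else (1 - x j) * v i j) := by
        intro j
        split_ifs with hij
        · simp
        · rcases hx j with hj | hj
          · simp [hj]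
          · have h1 := hxv j i (Ne.symm hij) hj
            rw [hsym i j, h1, hj]; ring
      rw [Finset.sum_congr rfl (fun j _ => hpt j), Finset.sum_add_distrib]
      congr 1
      apply Finset.sum_congr rfl
      intro j _
      split_ifs with hij
      · rw [← hij, h0]
      · rfl
    have hd8 := hdeg i h0
    rw [h0]
    nlinarith
  · rw [h1]; simp

end Vale.Agent.H39
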