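import Vale.Agent.H39.M8.Defs

/-!
TASK M8-PT (every placeholder replaced, statements kept exactly; helper lemmas in this file, names
starting `pt8_`).  Pointwise facts about `0/1` numbers (no sums).  Each hypothesis says that a
number is `0` or `1`; so every statement is a finite case check: `rcases` all the disjunctions,
`subst`, discharge impossible cases with the implications, `norm_num` (for `pt_triple`:
`1 - w ≤ 0` or `1 - w ≤ 1` with `w = 0 ∨ w = 1`; use `nlinarith`/`linarith` after substitution).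

`pt_pair`: `x_i + x_j - v = x_i x_j - (1-x_i)(1-x_j) v` when `x_i = 1 → v = 1`, `x_j = 1 → v = 1`.
`pt_triple`: with `w ≥ 1 - (1-v_ij)(1-v_ik)(1-v_jk)` the third-order term
`x_i + x_j + x_k - v_ij - v_ik - v_jk + w` is at least
`x_i x_j x_k - [three terms (1-x)(1-x) v x] - [three terms (1-x)(1-x)(1-x) v v]`.
-/

namespace Vale.Agent.H39

theorem pt_pair (xi xj v : ℝ) (hxi : xi = 0 ∨ xi = 1) (hxj : xj = 0 ∨ xj = 1)
    (hv : v = 0 ∨ v = 1) (h1 : xi = 1 → v = 1) (h2 : xj = 1 → v = 1) :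
    xi + xj - v = xi * xj - (1 - xi) * (1 - xj) * v := by
  rcases hxi with rfl | rfl
  · rcases hxj with rfl | rfl
    · ring
    · have h3 := h2 rfl
      subst h3
      ring
  · have h3 := h1 rfl
    subst h3
    rcases hxj with rfl | rfl <;> ring

theorem pt_triple (xi xj xk vij vik vjk w : ℝ)
    (hxi : xi = 0 ∨ xi = 1) (hxj : xj = 0 ∨ xj = 1) (hxk : xk = 0 ∨ xk = 1)
    (hvij : vij = 0 ∨ vij = 1) (hvik : vik = 0 ∨ vik = 1) (hvjk : vjk = 0 ∨ vjk = 1)
    (hi : xi = 1 → vij = 1 ∧ vik = 1) (hj : xj = 1 → vij = 1 ∧ vjk = 1)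
    (hk : xk = 1 → vik = 1 ∧ vjk = 1)
    (hw : 1 - w ≤ (1 - vij) * (1 - vik) * (1 - vjk)) :
    xi * xj * xk
      - ((1 - xi) * (1 - xj) * vij * xk + (1 - xi) * (1 - xk) * vik * xj
          + (1 - xj) * (1 - xk) * vjk * xi)
      - ((1 - xi) * (((1 - xj) * vij) * ((1 - xk) * vik))
          + (1 - xj) * (((1 - xi) * vij) * ((1 - xk) * vjk))
          + (1 - xk) * (((1 - xi) * vik) * ((1 - xj) * vjk)))
      ≤ xi + xj + xk - vij - vik - vjk + w := by
  have pt8_aux : ∀ a b c : ℝ, (a = 0 ∨ a = 1) → (b = 0 ∨ b = 1) → (c = 0 ∨ c = 1) →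
      1 - w ≤ (1 - a) * (1 - b) * (1 - c) →
      -(a * b + a * c + b * c) ≤ -a - b - c + w := by
    intro a b c ha hb hc h
    rcases ha with rfl | rfl <;> rcases hb with rfl | rfl <;> rcases hc with rfl | rfl <;>
      norm_num at h ⊢ <;> linarith
  rcases hxi with rfl | rfl
  · rcases hxj with rfl | rfl
    · rcases hxk with rfl | rfl
      · have h := pt8_aux vij vik vjk hvij hvik hvjk hw
        linarith
      · obtain ⟨rfl, rfl⟩ := hk rfl
        have h := pt8_aux vij 1 1 hvij (Or.inr rfl) (Or.inr rfl) hw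
        linarith
    · obtain ⟨rfl, rfl⟩ := hj rfl
      rcases hxk with rfl | rfl
      · have h := pt8_aux 1 vik 1 (Or.inr rfl) hvik (Or.inr rfl) hw
        linarith
      · obtain ⟨rfl, -⟩ := hk rfl
        have h := pt8_aux 1 1 1 (Or.inr rfl) (Or.inr rfl) (Or.inr rfl) hw
        linarith
  · obtain ⟨rfl, rfl⟩ := hi rfl
    rcases hxj with rfl | rfl
    · rcases hxk with rfl | rfl
      · have h := pt8_aux 1 1 vjk (Or.inr rfl) (Or.inr rfl) hvjk hw
        linarith
      · obtain ⟨-, rfl⟩ := hk rfl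
        have h := pt8_aux 1 1 1 (Or.inr rfl) (Or.inr rfl) (Or.inr rfl) hw
        linarith
    · obtain ⟨-, rfl⟩ := hj rfl
      have h := pt8_aux 1 1 1 (Or.inr rfl) (Or.inr rfl) (Or.inr rfl) hw
      rcases hxk with rfl | rfl <;> linarith

end Vale.Agent.H39
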