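import Vale.Agent.H39.M8.Defs

/-!
TASK M8-XX (done: every placeholder replaced, statements kept exactly; helper lemmas in this
file, names starting `xx_`).  Sums of products of a `0/1`-valued `x` over ordered pairs / triples of distinct
indices (`sum2`, `sum3`: Defs.lean).  With `s = ∑ i, x i` and `x i ^ 2 = x i`:

* `∑_{i ≠ j} x i x j = s^2 - ∑ i, x i^2 = s^2 - s`;
* `∑_{i,j,k distinct} x i x j x k = s^3 - 3 s^2 + 2 s = s (s-1) (s-2)`:
  for fixed `i ≠ j`, `∑_{k ≠ i, j} x k = s - x i - x j`, so the triple sum is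
  `∑_{i ≠ j} x i x j (s - x i - x j) = s (s^2 - s) - 2 ∑_{i ≠ j} x i x j = (s - 2)(s^2 - s)`
  (using `x i^2 = x i`).

Sketch of the mechanics: `∑ j, (if i = j then 0 else g j) = ∑ j, g j - g i`
(`Finset.sum_ite`, or `Finset.sum_erase`/`Finset.add_sum_erase`, or write the summand as
`g j - (if i = j then g j else 0)` and use `Finset.sum_ite_eq`); similarly for two excluded indices
`i ≠ j`: `∑ k, (if i = j ∨ i = k ∨ j = k then 0 else g k) = ∑ k, g k - g i - g j`.
-/

namespace Vale.Agent.H39

open Finset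

theorem xx_sq {n : ℕ} (x : Fin n → ℝ) (hx : ∀ i, x i = 0 ∨ x i = 1) (i : Fin n) :
    x i * x i = x i := by
  rcases hx i with h | h <;> rw [h] <;> norm_num

theorem xx_inner {n : ℕ} (g : Fin n → ℝ) (i : Fin n) :
    ∑ j : Fin n, (if i = j then 0 else g j) = ∑ j : Fin n, g j - g i := by
  have h : ∀ j : Fin n, (if i = j then 0 else g j) = g j - (if i = j then g j else 0) := by
    intro j
    split_ifs <;> ring
  simp_rw [h]
  rw [Finset.sum_sub_distrib, Finset.sum_ite_eq]
  simp

theorem xx_inner2 {n : ℕ} (g : Fin n → ℝ) (i j : Fin n) (hij : i ≠ j) :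
    ∑ k : Fin n, (if i = j ∨ i = k ∨ j = k then 0 else g k)
      = ∑ k : Fin n, g k - g i - g j := by
  have h : ∀ k : Fin n, (if i = j ∨ i = k ∨ j = k then 0 else g k)
      = g k - (if i = k then g k else 0) - (if j = k then g k else 0) := by
    intro k
    by_cases h1 : i = k
    · subst h1
      simp [hij, Ne.symm hij]
    · by_cases h2 : j = k
      · subst h2
        simp [hij]
      · simp [hij, h1, h2]
  simp_rw [h]
  rw [Finset.sum_sub_distrib, Finset.sum_sub_distrib, Finset.sum_ite_eq, Finset.sum_ite_eq]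
  simp

theorem sum2_xx {n : ℕ} (x : Fin n → ℝ) (hx : ∀ i, x i = 0 ∨ x i = 1) :
    sum2 (fun i j => x i * x j) = (∑ i : Fin n, x i) ^ 2 - ∑ i : Fin n, x i := by
  unfold sum2
  have h : ∀ i : Fin n, ∑ j : Fin n, (if i = j then 0 else x i * x j)
      = x i * (∑ j : Fin n, x j) - x i := by
    intro i
    rw [xx_inner (fun j => x i * x j) i, ← Finset.mul_sum, xx_sq x hx i]
  simp_rw [h]
  rw [Finset.sum_sub_distrib, ← Finset.sum_mul]
  ring

theorem sum3_xxx {n : ℕ} (x : Fin n → ℝ) (hx : ∀ i, x i = 0 ∨ x i = 1) :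
    sum3 (fun i j k => x i * x j * x k)
      = (∑ i : Fin n, x i) * ((∑ i : Fin n, x i) - 1) * ((∑ i : Fin n, x i) - 2) := by
  unfold sum3
  have h : ∀ i j : Fin n,
      ∑ k : Fin n, (if i = j ∨ i = k ∨ j = k then 0 else x i * x j * x k)
      = ((∑ k : Fin n, x k) - 2) * (if i = j then 0 else x i * x j) := by
    intro i j
    by_cases hij : i = j
    · subst hij
      simp
    · rw [if_neg hij, xx_inner2 (fun k => x i * x j * x k) i j hij, ← Finset.mul_sum]
      have hi := xx_sq x hx i
      have hj := xx_sq x hx j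
      have e1 : x i * x j * x i = x i * x j := by
        rw [mul_right_comm, hi]
      have e2 : x i * x j * x j = x i * x j := by
        rw [mul_assoc, hj]
      rw [e1, e2]
      ring
  simp_rw [h, ← Finset.mul_sum]
  have h2 := sum2_xx x hx
  unfold sum2 at h2
  rw [h2]
  ring

end Vale.Agent.H39
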