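import Vale.Agent.H39.M8.Sum
import Vale.Agent.H39.M8.XX
import Vale.Agent.H39.M8.Pt

/-!
TASK M8-CPAIR (proved by helper28; the statement is kept exactly).  Black boxes (used as stated): Sum.lean
(`sum2_congr`, `sum2_sub`, `sum2_rowS`), XX.lean (`sum2_xx`), Pt.lean (`pt_pair`).
Definitions (Defs.lean): `qOf x v i j = (1 - x j) * v i j`,
`mOf x v = ∑ i, (1 - x i) * rowS (qOf x v) i`, `rowS q i = ∑ j, if i = j then 0 else q i j`.

Claim: `∑_{i ≠ j} (x i + x j - v i j) = s^2 - s - mOf x v`, `s = ∑ i, x i`.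

Sketch.  For `i ≠ j`, `pt_pair (x i) (x j) (v i j)` (hypotheses: `hx`, `hv`, `hxv i j`, and
`x j = 1 → v i j = 1` from `hxv j i` and `hsym`) gives
`x i + x j - v i j = x i * x j - p i j`, `p i j = (1 - x i) * (1 - x j) * v i j`.
So by `sum2_congr`, `sum2_sub`, `sum2_xx`: the sum is `s^2 - s - sum2 p`, and
`sum2 p = ∑ i, rowS p i` (`sum2_rowS`), `rowS p i = (1 - x i) * rowS (qOf x v) i`
(`Finset.mul_sum`, `mul_ite`, `mul_zero`, `mul_assoc`), which is `mOf x v`.
-/

namespace Vale.Agent.H39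

open Finset

theorem core8_pair {n : ℕ} (x : Fin n → ℝ) (v : Fin n → Fin n → ℝ)
    (hx : ∀ i, x i = 0 ∨ x i = 1) (hv : ∀ i j, v i j = 0 ∨ v i j = 1)
    (hsym : ∀ i j, v i j = v j i) (hxv : ∀ i j, i ≠ j → x i = 1 → v i j = 1) :
    sum2 (fun i j => x i + x j - v i j)
      = (∑ i : Fin n, x i) ^ 2 - ∑ i : Fin n, x i - mOf x v := by
  have h1 : sum2 (fun i j => x i + x j - v i j)
      = sum2 (fun i j => x i * x j - (1 - x i) * (1 - x j) * v i j) := by
    apply sum2_congr
    intro i j hij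
    exact pt_pair (x i) (x j) (v i j) (hx i) (hx j) (hv i j) (hxv i j hij)
      (fun h => by rw [hsym i j]; exact hxv j i (Ne.symm hij) h)
  have h2 := sum2_sub (fun i j => x i * x j) (fun i j => (1 - x i) * (1 - x j) * v i j)
  have h3 : sum2 (fun i j => (1 - x i) * (1 - x j) * v i j) = mOf x v := by
    rw [sum2_rowS]
    unfold mOf
    apply Finset.sum_congr rfl
    intro i _
    unfold rowS qOf
    rw [Finset.mul_sum]
    apply Finset.sum_congr rfl
    intro j _
    split_ifs with h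
    · rw [mul_zero]
    · ring
  rw [h1]
  beta_reduce at h2
  rw [h2, sum2_xx x hx, h3]

end Vale.Agent.H39
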