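import Vale.Agent.H39.M8.Defs

/-!
TASK M8-PS (replace the `sorry`, keep the statement exactly; helper lemmas in this file, names
starting `ps_`).  A pair weight times a single weight, summed over ordered triples of distinct
indices (`sum2`, `sum3`: Defs.lean): if `p i j * x i = 0` and `p i j * x j = 0` for all `i, j`,
then `∑_{i,j,k distinct} p i j * x k = (∑_{i ≠ j} p i j) * ∑ k, x k`.

Sketch.  For fixed `i ≠ j`:
`∑ k, (if i = j ∨ i = k ∨ j = k then 0 else p i j * x k) = p i j * (∑ k, x k - x i - x j)
 = p i j * ∑ k, x k` (the two excluded terms vanish by `h1`, `h2`); for `i = j` both sides of the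
inner identity are `0`.  Then sum over `i, j` and pull out the constant (`Finset.sum_mul`).
Mechanics for the excluded indices: the summand is
`p i j * x k - (if i = k then p i j * x k else 0) - (if j = k then p i j * x k else 0)` when
`i ≠ j` (`Finset.sum_sub_distrib`, `Finset.sum_ite_eq`).
-/

namespace Vale.Agent.H39

open Finset

theorem sum3_pair_single {n : ℕ} (p : Fin n → Fin n → ℝ) (x : Fin n → ℝ)
    (h1 : ∀ i j, p i j * x i = 0) (h2 : ∀ i j, p i j * x j = 0) :
    sum3 (fun i j k => p i j * x k) = sum2 p * ∑ k : Fin n, x k := by
  unfold sum3 sum2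
  rw [Finset.sum_mul]
  apply Finset.sum_congr rfl
  intro i _
  rw [Finset.sum_mul]
  apply Finset.sum_congr rfl
  intro j _
  by_cases hij : i = j
  · simp [hij]
  · rw [if_neg hij]
    have e : ∀ k : Fin n,
        (if i = j ∨ i = k ∨ j = k then 0 else p i j * x k) = p i j * x k := by
      intro k
      split_ifs with hc
      · rcases hc with hc | hc | hc
        · exact absurd hc hij
        · rw [← hc]
          exact (h1 i j).symm
        · rw [← hc]
          exact (h2 i j).symm
      · rfl
    simp only [e]
    rw [Finset.mul_sum]

end Vale.Agent.H39
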