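import Vale.Agent.H39.M8.Defs

/-!
TASK M8-STAR3 (proved; the statement is kept exactly; helper lemmas in this file, names
starting `st3_`).  Two entries of the same row, summed over ordered triples of distinct indices
(`sum3`, `rowS`: Defs.lean): for a `0/1`-valued `q`,
`∑_{i,j,k distinct} y i * (q i j * q i k) = ∑ i, y i * ((rowS q i)^2 - rowS q i)`,
where `rowS q i = ∑ j, if i = j then 0 else q i j`.

Sketch.  Fix `i`.  With `r j = if i = j then 0 else q i j` (so `rowS q i = ∑ j, r j` and
`r j ^ 2 = r j`):
`∑ j, ∑ k, (if i = j ∨ i = k ∨ j = k then 0 else q i j * q i k) = ∑ j, ∑ k, (if j = k then 0 else r j * r k)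
 = (∑ j, r j)^2 - ∑ j, r j^2 = (rowS q i)^2 - rowS q i`
(`Finset.sum_mul_sum`, and `∑ k, (if j = k then 0 else r j * r k) = r j * ∑ k, r k - r j * r j`).
Then multiply by `y i` (`Finset.mul_sum`) and sum over `i`.
-/

namespace Vale.Agent.H39

open Finset

theorem st3_inner {n : ℕ} (r : Fin n → ℝ) :
    ∑ j : Fin n, ∑ k : Fin n, (if j = k then 0 else r j * r k)
      = (∑ j, r j) ^ 2 - ∑ j, r j ^ 2 := by
  have h : ∀ j : Fin n, ∑ k : Fin n, (if j = k then 0 else r j * r k)
      = r j * ∑ k, r k - r j ^ 2 := by
    intro j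
    have h1 : ∀ k : Fin n, (if j = k then (0 : ℝ) else r j * r k)
        = r j * r k - (if j = k then r j * r k else 0) := by
      intro k
      split_ifs <;> ring
    rw [Finset.sum_congr rfl (fun k _ => h1 k), Finset.sum_sub_distrib, ← Finset.mul_sum,
      Finset.sum_ite_eq Finset.univ j (fun k => r j * r k)]
    simp [sq]
  rw [Finset.sum_congr rfl (fun j _ => h j), Finset.sum_sub_distrib, ← Finset.sum_mul, sq]

theorem sum3_star {n : ℕ} (y : Fin n → ℝ) (q : Fin n → Fin n → ℝ)
    (hq : ∀ i j, q i j = 0 ∨ q i j = 1) :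
    sum3 (fun i j k => y i * (q i j * q i k))
      = ∑ i : Fin n, y i * (rowS q i ^ 2 - rowS q i) := by
  unfold sum3
  apply Finset.sum_congr rfl
  intro i _
  set r : Fin n → ℝ := fun j => if i = j then 0 else q i j with hr
  have hA : ∀ j k : Fin n,
      (if i = j ∨ i = k ∨ j = k then (0 : ℝ) else y i * (q i j * q i k))
        = y i * (if j = k then 0 else r j * r k) := by
    intro j k
    by_cases h1 : i = j
    · simp [hr, h1]
    · by_cases h2 : i = k
      · simp [hr, h2]
      · by_cases h3 : j = k
        · simp [h3]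
        · simp [hr, h1, h2, h3]
  have hsq : ∀ j : Fin n, r j ^ 2 = r j := by
    intro j
    simp only [hr]
    split_ifs
    · norm_num
    · rcases hq i j with h | h <;> rw [h] <;> norm_num
  have hrow : rowS q i = ∑ j, r j := rfl
  calc ∑ j, ∑ k, (if i = j ∨ i = k ∨ j = k then (0 : ℝ) else y i * (q i j * q i k))
      = ∑ j, ∑ k, y i * (if j = k then 0 else r j * r k) := by
        apply Finset.sum_congr rfl
        intro j _
        apply Finset.sum_congr rfl
        intro k _
        exact hA j k
    _ = y i * ∑ j, ∑ k, (if j = k then 0 else r j * r k) := by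
        rw [Finset.mul_sum]
        apply Finset.sum_congr rfl
        intro j _
        rw [Finset.mul_sum]
    _ = y i * (rowS q i ^ 2 - rowS q i) := by
        rw [st3_inner, hrow, Finset.sum_congr rfl (fun j _ => hsq j)]

end Vale.Agent.H39
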