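import Vale.Agent.H39.M8.Sum
import Vale.Agent.H39.M8.XX
import Vale.Agent.H39.M8.PS
import Vale.Agent.H39.M8.Star3
import Vale.Agent.H39.M8.Pt

/-!
TASK M8-CTRI (replace the `sorry`, keep the statement exactly; helper lemmas in this file, names
starting `ct_`).  Black boxes (use them as stated even while they are still `sorry`): Sum.lean
(`sum3_mono`, `sum3_add`, `sum3_sub`, `sum3_swap12`, `sum3_swap23`, `sum2_rowS`), XX.lean
(`sum3_xxx`), PS.lean (`sum3_pair_single`), Star3.lean (`sum3_star`), Pt.lean (`pt_triple`).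
Definitions (Defs.lean): `qOf x v i j = (1 - x j) * v i j`,
`mOf x v = ∑ i, (1 - x i) * rowS (qOf x v) i`, `rOf x v = ∑ i, (1 - x i) * (rowS (qOf x v) i)^2`.

Claim, with `s = ∑ i, x i`, `M = mOf x v`, `R = rOf x v`:
`s (s-1) (s-2) - 3 M s - 3 (R - M) ≤ ∑_{i,j,k distinct} (x i + x j + x k - v i j - v i k - v j k + w i j k)`.

Sketch.  Put `p i j = (1 - x i) * (1 - x j) * v i j`, `q = qOf x v`,
`X i j k = x i * x j * x k`, `A1 i j k = p i j * x k`, `A2 i j k = p i k * x j`,
`A3 i j k = p j k * x i`, `B1 i j k = (1 - x i) * (q i j * q i k)`,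
`B2 i j k = (1 - x j) * (q j i * q j k)`, `B3 i j k = (1 - x k) * (q k i * q k j)`.
1. For distinct `i, j, k`, `pt_triple (x i) (x j) (x k) (v i j) (v i k) (v j k) (w i j k)` gives
   `X - (A1 + A2 + A3) - (B1 + B2 + B3) ≤ x i + x j + x k - v i j - v i k - v j k + w i j k`
   (its hypotheses: `hx`, `hv`, `hw`, and `hxv` with `hsym` for the six implications; the shape of
   its left side is the one above after `hsym j i`, `hsym k i`, `hsym k j` and unfolding `qOf`).
   Hence by `sum3_mono`, `sum3_sub`, `sum3_add`: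
   `sum3 X - (sum3 A1 + sum3 A2 + sum3 A3) - (sum3 B1 + sum3 B2 + sum3 B3) ≤` the right side.
2. `sum3 X = s (s-1) (s-2)` (`sum3_xxx`).
3. `sum3 A1 = sum2 p * s` (`sum3_pair_single`; `p i j * x i = 0` and `p i j * x j = 0` because
   `(1 - x i) * x i = 0` for `x i = 0 ∨ x i = 1`), `sum2 p = mOf x v` (`sum2_rowS`,
   `rowS p i = (1 - x i) * rowS q i` by `Finset.mul_sum`).  `A2 i j k = A1 i k j`, so
   `sum3 A2 = sum3 A1` (`sum3_swap23`); `A3 i j k = A1 j k i`, so `sum3 A3 = sum3 A1`
   (`sum3_swap12` applied to `fun a b c => A1 a c b`, then `sum3_swap23`).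
4. `sum3 B1 = ∑ i, (1 - x i) * ((rowS q i)^2 - rowS q i) = R - M` (`sum3_star` with
   `y i = 1 - x i`; `q i j = 0 ∨ q i j = 1` from `hx`, `hv`).  `B2 i j k = B1 j i k`
   (`sum3_swap12`), `B3 i j k = B1 k i j` (`sum3_swap23` applied to `fun a b c => B1 b a c`, then
   `sum3_swap12`).
-/

namespace Vale.Agent.H39

open Finset

/-- linearity of `sum3` for the seven summands of the triple bound -/
theorem ct_lin {n : ℕ} (X A1 A2 A3 B1 B2 B3 : Fin n → Fin n → Fin n → ℝ) :
    sum3 (fun i j k => X i j k - (A1 i j k + A2 i j k + A3 i j k)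
        - (B1 i j k + B2 i j k + B3 i j k))
      = sum3 X - (sum3 A1 + sum3 A2 + sum3 A3) - (sum3 B1 + sum3 B2 + sum3 B3) := by
  rw [sum3_sub (fun i j k => X i j k - (A1 i j k + A2 i j k + A3 i j k))
      (fun i j k => B1 i j k + B2 i j k + B3 i j k),
    sum3_sub X (fun i j k => A1 i j k + A2 i j k + A3 i j k),
    sum3_add (fun i j k => A1 i j k + A2 i j k) A3, sum3_add A1 A2,
    sum3_add (fun i j k => B1 i j k + B2 i j k) B3, sum3_add B1 B2]

theorem core8_triple {n : ℕ} (x : Fin n → ℝ) (v : Fin n → Fin n → ℝ)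
    (w : Fin n → Fin n → Fin n → ℝ)
    (hx : ∀ i, x i = 0 ∨ x i = 1) (hv : ∀ i j, v i j = 0 ∨ v i j = 1)
    (hsym : ∀ i j, v i j = v j i) (hxv : ∀ i j, i ≠ j → x i = 1 → v i j = 1)
    (hw : ∀ i j k, i ≠ j → i ≠ k → j ≠ k →
      1 - w i j k ≤ (1 - v i j) * (1 - v i k) * (1 - v j k)) :
    (∑ i : Fin n, x i) * ((∑ i : Fin n, x i) - 1) * ((∑ i : Fin n, x i) - 2)
        - 3 * mOf x v * (∑ i : Fin n, x i) - 3 * (rOf x v - mOf x v)
      ≤ sum3 (fun i j k => x i + x j + x k - v i j - v i k - v j k + w i j k) := by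
  have hxx : ∀ i, (1 - x i) * x i = 0 := by
    intro i
    rcases hx i with h | h <;> simp [h]
  -- Step 1: the pointwise inequality, summed
  have h1 : sum3 (fun i j k => x i * x j * x k
        - ((1 - x i) * (1 - x j) * v i j * x k + (1 - x i) * (1 - x k) * v i k * x j
            + (1 - x j) * (1 - x k) * v j k * x i)
        - ((1 - x i) * (qOf x v i j * qOf x v i k) + (1 - x j) * (qOf x v j i * qOf x v j k)
            + (1 - x k) * (qOf x v k i * qOf x v k j)))
      ≤ sum3 (fun i j k => x i + x j + x k - v i j - v i k - v j k + w i j k) := by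
    apply sum3_mono
    intro i j k hij hik hjk
    have h := pt_triple (x i) (x j) (x k) (v i j) (v i k) (v j k) (w i j k) (hx i) (hx j) (hx k)
      (hv i j) (hv i k) (hv j k)
      (fun h => ⟨hxv i j hij h, hxv i k hik h⟩)
      (fun h => ⟨by rw [hsym i j]; exact hxv j i (Ne.symm hij) h, hxv j k hjk h⟩)
      (fun h => ⟨by rw [hsym i k]; exact hxv k i (Ne.symm hik) h,
        by rw [hsym j k]; exact hxv k j (Ne.symm hjk) h⟩)
      (hw i j k hij hik hjk)
    simp only [qOf]
    rw [hsym j i, hsym k i, hsym k j]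
    exact h
  have e := ct_lin (fun i j k => x i * x j * x k)
    (fun i j k => (1 - x i) * (1 - x j) * v i j * x k)
    (fun i j k => (1 - x i) * (1 - x k) * v i k * x j)
    (fun i j k => (1 - x j) * (1 - x k) * v j k * x i)
    (fun i j k => (1 - x i) * (qOf x v i j * qOf x v i k))
    (fun i j k => (1 - x j) * (qOf x v j i * qOf x v j k))
    (fun i j k => (1 - x k) * (qOf x v k i * qOf x v k j))
  have h1' : sum3 (fun i j k => x i * x j * x k)
      - (sum3 (fun i j k => (1 - x i) * (1 - x j) * v i j * x k)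
          + sum3 (fun i j k => (1 - x i) * (1 - x k) * v i k * x j)
          + sum3 (fun i j k => (1 - x j) * (1 - x k) * v j k * x i))
      - (sum3 (fun i j k => (1 - x i) * (qOf x v i j * qOf x v i k))
          + sum3 (fun i j k => (1 - x j) * (qOf x v j i * qOf x v j k))
          + sum3 (fun i j k => (1 - x k) * (qOf x v k i * qOf x v k j)))
      ≤ sum3 (fun i j k => x i + x j + x k - v i j - v i k - v j k + w i j k) := by
    rw [← e]
    exact h1
  -- Step 2
  have hX := sum3_xxx x hx
  -- Step 3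
  have hrow : ∀ i, rowS (fun i j => (1 - x i) * (1 - x j) * v i j) i
      = (1 - x i) * rowS (qOf x v) i := by
    intro i
    unfold rowS qOf
    rw [Finset.mul_sum]
    apply Finset.sum_congr rfl
    intro j _
    split_ifs
    · ring
    · ring
  have hA1 : sum3 (fun i j k => (1 - x i) * (1 - x j) * v i j * x k)
      = mOf x v * ∑ k : Fin n, x k := by
    rw [sum3_pair_single (fun i j => (1 - x i) * (1 - x j) * v i j) x
      (fun i j => by
        have h := hxx i
        calc (1 - x i) * (1 - x j) * v i j * x i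
            = ((1 - x i) * x i) * ((1 - x j) * v i j) := by ring
          _ = 0 := by rw [h, zero_mul])
      (fun i j => by
        have h := hxx j
        calc (1 - x i) * (1 - x j) * v i j * x j
            = ((1 - x j) * x j) * ((1 - x i) * v i j) := by ring
          _ = 0 := by rw [h, zero_mul]),
      sum2_rowS]
    congr 1
    unfold mOf
    exact Finset.sum_congr rfl (fun i _ => hrow i)
  have hA2 : sum3 (fun i j k => (1 - x i) * (1 - x k) * v i k * x j)
      = sum3 (fun i j k => (1 - x i) * (1 - x j) * v i j * x k) :=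
    sum3_swap23 (fun i j k => (1 - x i) * (1 - x j) * v i j * x k)
  have hA3 : sum3 (fun i j k => (1 - x j) * (1 - x k) * v j k * x i)
      = sum3 (fun i j k => (1 - x i) * (1 - x j) * v i j * x k) :=
    (sum3_swap12 (fun a b c => (1 - x a) * (1 - x c) * v a c * x b)).trans hA2
  -- Step 4
  have hq : ∀ i j, qOf x v i j = 0 ∨ qOf x v i j = 1 := by
    intro i j
    unfold qOf
    rcases hx j with h | h <;> rcases hv i j with h' | h' <;> simp [h, h']
  have hB1 : sum3 (fun i j k => (1 - x i) * (qOf x v i j * qOf x v i k))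
      = rOf x v - mOf x v := by
    rw [sum3_star (fun i => 1 - x i) (qOf x v) hq]
    unfold rOf mOf
    rw [← Finset.sum_sub_distrib]
    apply Finset.sum_congr rfl
    intro i _
    ring
  have hB2 : sum3 (fun i j k => (1 - x j) * (qOf x v j i * qOf x v j k))
      = sum3 (fun i j k => (1 - x i) * (qOf x v i j * qOf x v i k)) :=
    sum3_swap12 (fun i j k => (1 - x i) * (qOf x v i j * qOf x v i k))
  have hB3 : sum3 (fun i j k => (1 - x k) * (qOf x v k i * qOf x v k j))
      = sum3 (fun i j k => (1 - x i) * (qOf x v i j * qOf x v i k)) :=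
    (sum3_swap23 (fun a b c => (1 - x b) * (qOf x v b a * qOf x v b c))).trans hB2
  rw [hX, hA2, hA3, hA1, hB2, hB3, hB1] at h1'
  linarith

end Vale.Agent.H39
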