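import Vale.Agent.H39.M8.Defs
import Vale.Agent.H39.M8.XX

/-!
TASK M8-CNT (replace every `sorry`, keep the statements exactly; helper lemmas in this file, names
starting `cnt8_`).  Counting ordered tuples of distinct elements of a finite set `T` of indices
(`sum2`, `sum3`: Defs.lean), as real numbers:
the number of `i` with `{i} ⊆ T` is `|T|`; of ordered pairs `i ≠ j` with `{i, j} ⊆ T` is
`|T| (|T| - 1)`; of ordered triples of distinct `i, j, k` with `{i, j, k} ⊆ T` is
`|T| (|T| - 1) (|T| - 2)`.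

Sketch.  `{i} ⊆ T ↔ i ∈ T` (`Finset.singleton_subset_iff`), `{i, j} ⊆ T ↔ i ∈ T ∧ j ∈ T`
(`Finset.insert_subset_iff`), similarly for three.  With `t i = if i ∈ T then (1 : ℝ) else 0`
(`∑ i, t i = T.card` by `Finset.sum_boole`/`Finset.sum_ite_mem`, `t i ^ 2 = t i`) the summands are
`t i`, `t i * t j`, `t i * t j * t k`; then
`∑_{i ≠ j} t i t j = c^2 - c` and `∑_{distinct} t i t j t k = c (c - 1) (c - 2)` exactly as in
XX.lean (`sum2_xx`, `sum3_xxx`: you may import `Vale.Agent.H39.M8.XX` and use them as black boxes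
with `x = t`).
-/

namespace Vale.Agent.H39

open Finset

/-- the sum of the indicator of `T` is its cardinality -/
theorem cnt8_sum {n : ℕ} (T : Finset (Fin n)) :
    ∑ i : Fin n, (if i ∈ T then (1 : ℝ) else 0) = (T.card : ℝ) := by
  rw [Finset.sum_boole]
  simp

/-- the indicator of `T` takes the values `0` and `1` -/
theorem cnt8_bool {n : ℕ} (T : Finset (Fin n)) (i : Fin n) :
    (if i ∈ T then (1 : ℝ) else 0) = 0 ∨ (if i ∈ T then (1 : ℝ) else 0) = 1 := by
  by_cases hi : i ∈ T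
  · right
    rw [if_pos hi]
  · left
    rw [if_neg hi]

theorem cnt8_pair {n : ℕ} (T : Finset (Fin n)) (i j : Fin n) :
    (if ({i, j} : Finset (Fin n)) ⊆ T then (1 : ℝ) else 0)
      = (if i ∈ T then (1 : ℝ) else 0) * (if j ∈ T then (1 : ℝ) else 0) := by
  by_cases hi : i ∈ T <;> by_cases hj : j ∈ T <;> simp [Finset.insert_subset_iff, hi, hj]

theorem cnt8_triple {n : ℕ} (T : Finset (Fin n)) (i j k : Fin n) :
    (if ({i, j, k} : Finset (Fin n)) ⊆ T then (1 : ℝ) else 0)
      = (if i ∈ T then (1 : ℝ) else 0) * (if j ∈ T then (1 : ℝ) else 0)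
          * (if k ∈ T then (1 : ℝ) else 0) := by
  by_cases hi : i ∈ T <;> by_cases hj : j ∈ T <;> by_cases hk : k ∈ T <;>
    simp [Finset.insert_subset_iff, hi, hj, hk]

theorem cnt_one {n : ℕ} (T : Finset (Fin n)) :
    ∑ i : Fin n, (if ({i} : Finset (Fin n)) ⊆ T then (1 : ℝ) else 0) = (T.card : ℝ) := by
  simp only [Finset.singleton_subset_iff]
  exact cnt8_sum T

theorem cnt_two {n : ℕ} (T : Finset (Fin n)) :
    sum2 (fun i j => if ({i, j} : Finset (Fin n)) ⊆ T then (1 : ℝ) else 0)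
      = (T.card : ℝ) * ((T.card : ℝ) - 1) := by
  have e : (fun i j : Fin n => if ({i, j} : Finset (Fin n)) ⊆ T then (1 : ℝ) else 0)
      = fun i j => (if i ∈ T then (1 : ℝ) else 0) * (if j ∈ T then (1 : ℝ) else 0) := by
    funext i j
    exact cnt8_pair T i j
  rw [e, sum2_xx _ (cnt8_bool T), cnt8_sum]
  ring

theorem cnt_three {n : ℕ} (T : Finset (Fin n)) :
    sum3 (fun i j k => if ({i, j, k} : Finset (Fin n)) ⊆ T then (1 : ℝ) else 0)
      = (T.card : ℝ) * ((T.card : ℝ) - 1) * ((T.card : ℝ) - 2) := by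
  have e : (fun i j k : Fin n => if ({i, j, k} : Finset (Fin n)) ⊆ T then (1 : ℝ) else 0)
      = fun i j k => (if i ∈ T then (1 : ℝ) else 0) * (if j ∈ T then (1 : ℝ) else 0)
          * (if k ∈ T then (1 : ℝ) else 0) := by
    funext i j k
    exact cnt8_triple T i j k
  rw [e, sum3_xxx _ (cnt8_bool T), cnt8_sum]

end Vale.Agent.H39
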