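import Vale.Agent.H39.M8.CPair
import Vale.Agent.H39.M8.CTri
import Vale.Agent.H39.M8.CDeg

/-!
# The combinatorial inequality behind the degree-eight bound (seat H39)

`x i`, `v i j`, `w i j k` are the indicators that a sign-valued antitone `G` with `G(+) = 1` takes
the value `-1` at the points with one, two, three `true` coordinates.  With `s = ∑ x`,
`M = mOf x v`, `R = rOf x v` (Defs.lean):
`192 (35/16 - topW G) ≥ s (s^2 - 27 s + 254) + 3 ((9 - s) M - R) ≥ 0`.
-/

namespace Vale.Agent.H39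

open Finset

theorem core8 {n : ℕ} (x : Fin n → ℝ) (v : Fin n → Fin n → ℝ) (w : Fin n → Fin n → Fin n → ℝ)
    (hx : ∀ i, x i = 0 ∨ x i = 1) (hv : ∀ i j, v i j = 0 ∨ v i j = 1)
    (hsym : ∀ i j, v i j = v j i) (hxv : ∀ i j, i ≠ j → x i = 1 → v i j = 1)
    (hw : ∀ i j k, i ≠ j → i ≠ k → j ≠ k →
      1 - w i j k ≤ (1 - v i j) * (1 - v i k) * (1 - v j k))
    (hdeg : ∀ i, x i = 0 → rowS v i ≤ 8) :
    0 ≤ 19 / 16 * ∑ i : Fin n, x i
        - 1 / 8 * sum2 (fun i j => x i + x j - v i j)
        + 1 / 192 * sum3 (fun i j k => x i + x j + x k - v i j - v i k - v j k + w i j k) := by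
  have h2 := core8_pair x v hx hv hsym hxv
  have h3 := core8_triple x v w hx hv hsym hxv hw
  have hd := core8_deg x v hx hv hsym hxv hdeg
  have hs : 0 ≤ ∑ i : Fin n, x i :=
    Finset.sum_nonneg (fun i _ => by rcases hx i with h | h <;> simp [h])
  rw [h2]
  generalize (∑ i : Fin n, x i) = s at *
  generalize mOf x v = M at *
  generalize rOf x v = R at *
  generalize sum3 (fun i j k => x i + x j + x k - v i j - v i k - v j k + w i j k) = T at *
  have hpoly : 0 ≤ s * (s ^ 2 - 27 * s + 254) := by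
    apply mul_nonneg hs
    nlinarith [sq_nonneg (2 * s - 27)]
  nlinarith
end Vale.Agent.H39
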