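import Vale.Agent.H39.M6.Main

/-!
# Monotone functions of degree at most eight: definitions (seat H39)

Points of the cube are `x : Fin n → Bool` (`true` is the sign `-1`, `false` the sign `1`).
`ptOf U` is the point whose `true` coordinates are exactly those of `U`; `altS G S` is the
alternating sum of `G` over the subcube spanned by `S` at the all-`false` point
(`altsum_fourier`, M6/AltSum.lean: `altS G S = 2^|S| ∑_{T ⊇ S} coef G T`).
`sum2`, `sum3` are sums over ordered pairs / triples of distinct indices, `rowS q i` the sum of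
row `i` of `q` off the diagonal.  `topW G` is the third-order expression
`35/16 G(+) - 19/16 Q'(1) + 1/4 Q''(1) - 1/48 Q'''(1)`, `Q(ρ) = ∑_T coef G T ρ^|T|`.
For a function whose Fourier coefficients of odd order at least `9` vanish,
`2 ∑_i F^({i}) = topW F + topW (starF F)`.
-/

namespace Vale.Agent.H39

open Finset

/-- the point of the cube whose `true` coordinates are exactly those of `U` -/
def ptOf {n : ℕ} (U : Finset (Fin n)) : Fin n → Bool := fun i => decide (i ∈ U)

/-- alternating sum of `G` over the subcube spanned by `S` at the all-`false` point -/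
noncomputable def altS {n : ℕ} (G : (Fin n → Bool) → ℝ) (S : Finset (Fin n)) : ℝ :=
  ∑ U ∈ S.powerset, (-1 : ℝ) ^ U.card * G (ptOf U)

/-- sum over ordered pairs of distinct indices -/
noncomputable def sum2 {n : ℕ} (f : Fin n → Fin n → ℝ) : ℝ :=
  ∑ i : Fin n, ∑ j : Fin n, if i = j then 0 else f i j

/-- sum over ordered triples of distinct indices -/
noncomputable def sum3 {n : ℕ} (f : Fin n → Fin n → Fin n → ℝ) : ℝ :=
  ∑ i : Fin n, ∑ j : Fin n, ∑ k : Fin n, if i = j ∨ i = k ∨ j = k then 0 else f i j k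

/-- the sum of row `i` off the diagonal -/
noncomputable def rowS {n : ℕ} (q : Fin n → Fin n → ℝ) (i : Fin n) : ℝ :=
  ∑ j : Fin n, if i = j then 0 else q i j

/-- the third-order expression at the all-`false` point -/
noncomputable def topW {n : ℕ} (G : (Fin n → Bool) → ℝ) : ℝ :=
  35 / 16 * G (ptOf ∅)
    - 19 / 32 * ∑ i : Fin n, altS G {i}
    + 1 / 16 * sum2 (fun i j => altS G {i, j})
    - 1 / 384 * sum3 (fun i j k => altS G {i, j, k})

/-- `qOf x v i j = (1 - x j) * v i j` -/
noncomputable def qOf {n : ℕ} (x : Fin n → ℝ) (v : Fin n → Fin n → ℝ) : Fin n → Fin n → ℝ :=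
  fun i j => (1 - x j) * v i j

/-- `mOf x v = ∑ i, (1 - x i) * rowS (qOf x v) i` -/
noncomputable def mOf {n : ℕ} (x : Fin n → ℝ) (v : Fin n → Fin n → ℝ) : ℝ :=
  ∑ i : Fin n, (1 - x i) * rowS (qOf x v) i

/-- `rOf x v = ∑ i, (1 - x i) * (rowS (qOf x v) i)^2` -/
noncomputable def rOf {n : ℕ} (x : Fin n → ℝ) (v : Fin n → Fin n → ℝ) : ℝ :=
  ∑ i : Fin n, (1 - x i) * rowS (qOf x v) i ^ 2

/-- `altS` in the form of `altsum_fourier`. -/
theorem altS_fourier {n : ℕ} (G : (Fin n → Bool) → ℝ) (S : Finset (Fin n)) :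
    altS G S = 2 ^ S.card * ∑ T : Finset (Fin n), if S ⊆ T then coef G T else 0 :=
  altsum_fourier G S

end Vale.Agent.H39
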