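import Vale.Agent.H39.M8.Sum
import Vale.Agent.H39.M8.Cnt

/-!
TASK M8-EXPAND (replace the `sorry`, keep the statement exactly; helper lemmas in this file, names
starting `ex8_`).  Black boxes (use them as stated even while they are still `sorry`): Cnt.lean
(`cnt_one`, `cnt_two`, `cnt_three`), Sum.lean, and `altS_fourier` (Defs.lean):
`altS G S = 2 ^ S.card * ∑ T, if S ⊆ T then coef G T else 0`.

Claim: `topW G = ∑ T, coef G T * φ(|T|)`,
`φ(c) = 35/16 - 19/16 c + 1/4 c (c-1) - 1/48 c (c-1) (c-2)`.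

Sketch.  `G (ptOf ∅) = altS G ∅ = ∑ T, coef G T` (`altS_fourier` with `S = ∅`; `altS G ∅` is the
single term `U = ∅`: `Finset.powerset_empty`, `Finset.sum_singleton`).
`∑ i, altS G {i} = 2 * ∑ T, coef G T * |T|`: `altS_fourier`, `Finset.card_singleton`, swap the sums
(`Finset.sum_comm`), `(if {i} ⊆ T then coef G T else 0) = coef G T * (if {i} ⊆ T then 1 else 0)`,
`cnt_one`.  `sum2 (fun i j => altS G {i, j}) = 4 * ∑ T, coef G T * (|T| (|T| - 1))`: for `i ≠ j`,
`({i, j} : Finset _).card = 2` (`Finset.card_pair`), so by `sum2_congr` the summand may be replaced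
by `4 * ∑ T, coef G T * (if {i, j} ⊆ T then 1 else 0)`; then unfold `sum2`, move the sum over `T`
outside (`Finset.sum_comm`, `Finset.mul_sum`, `mul_ite`) and use `cnt_two`.  Likewise
`sum3 (fun i j k => altS G {i, j, k}) = 8 * ∑ T, coef G T * (|T| (|T| - 1) (|T| - 2))`
(`Finset.card_insert_of_notMem`; `sum3_congr`; `cnt_three`).  Finally
`35/16 - 19/32 * 2 c + 1/16 * 4 c (c-1) - 1/384 * 8 c (c-1) (c-2) = φ(c)` and
`Finset.sum_add_distrib`/`Finset.mul_sum`/`ring`.
-/

namespace Vale.Agent.H39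

open Finset

/-- moving a weighted sum over `T` out of a double sum -/
theorem ex8_comm2 {n : ℕ} (c : Finset (Fin n) → ℝ) (g : Finset (Fin n) → Fin n → Fin n → ℝ) :
    ∑ i : Fin n, ∑ j : Fin n, ∑ T : Finset (Fin n), c T * g T i j
      = ∑ T : Finset (Fin n), c T * ∑ i : Fin n, ∑ j : Fin n, g T i j := by
  calc ∑ i : Fin n, ∑ j : Fin n, ∑ T : Finset (Fin n), c T * g T i j
      = ∑ i : Fin n, ∑ T : Finset (Fin n), ∑ j : Fin n, c T * g T i j :=
        Finset.sum_congr rfl fun i _ => Finset.sum_comm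
    _ = ∑ T : Finset (Fin n), ∑ i : Fin n, ∑ j : Fin n, c T * g T i j := Finset.sum_comm
    _ = ∑ T : Finset (Fin n), c T * ∑ i : Fin n, ∑ j : Fin n, g T i j := by
        refine Finset.sum_congr rfl fun T _ => ?_
        rw [Finset.mul_sum]
        refine Finset.sum_congr rfl fun i _ => ?_
        rw [Finset.mul_sum]

/-- moving a weighted sum over `T` out of a triple sum -/
theorem ex8_comm3 {n : ℕ} (c : Finset (Fin n) → ℝ)
    (g : Finset (Fin n) → Fin n → Fin n → Fin n → ℝ) :
    ∑ i : Fin n, ∑ j : Fin n, ∑ k : Fin n, ∑ T : Finset (Fin n), c T * g T i j k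
      = ∑ T : Finset (Fin n), c T * ∑ i : Fin n, ∑ j : Fin n, ∑ k : Fin n, g T i j k := by
  calc ∑ i : Fin n, ∑ j : Fin n, ∑ k : Fin n, ∑ T : Finset (Fin n), c T * g T i j k
      = ∑ i : Fin n, ∑ T : Finset (Fin n), c T * ∑ j : Fin n, ∑ k : Fin n, g T i j k :=
        Finset.sum_congr rfl fun i _ => ex8_comm2 c (fun T j k => g T i j k)
    _ = ∑ T : Finset (Fin n), ∑ i : Fin n, c T * ∑ j : Fin n, ∑ k : Fin n, g T i j k :=
        Finset.sum_comm
    _ = ∑ T : Finset (Fin n), c T * ∑ i : Fin n, ∑ j : Fin n, ∑ k : Fin n, g T i j k := by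
        refine Finset.sum_congr rfl fun T _ => ?_
        rw [Finset.mul_sum]

/-- the value at the all-`false` point -/
theorem ex8_zero {n : ℕ} (G : (Fin n → Bool) → ℝ) :
    G (ptOf ∅) = ∑ T : Finset (Fin n), coef G T := by
  have h := altS_fourier G ∅
  simp only [altS, Finset.powerset_empty, Finset.sum_singleton, Finset.card_empty, pow_zero,
    one_mul, Finset.empty_subset, if_true] at h
  exact h

/-- the first-order term -/
theorem ex8_one {n : ℕ} (G : (Fin n → Bool) → ℝ) :
    ∑ i : Fin n, altS G {i} = 2 * ∑ T : Finset (Fin n), coef G T * (T.card : ℝ) := by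
  have h1 : ∀ i : Fin n, altS G {i} = ∑ T : Finset (Fin n),
      coef G T * (2 * (if ({i} : Finset (Fin n)) ⊆ T then (1 : ℝ) else 0)) := by
    intro i
    rw [altS_fourier, Finset.card_singleton, pow_one, Finset.mul_sum]
    refine Finset.sum_congr rfl fun T _ => ?_
    split_ifs <;> ring
  simp_rw [h1]
  rw [Finset.sum_comm, Finset.mul_sum]
  refine Finset.sum_congr rfl fun T _ => ?_
  rw [← Finset.mul_sum, ← Finset.mul_sum, cnt_one]
  ring

/-- the second-order term -/
theorem ex8_two {n : ℕ} (G : (Fin n → Bool) → ℝ) :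
    sum2 (fun i j => altS G {i, j})
      = 4 * ∑ T : Finset (Fin n), coef G T * ((T.card : ℝ) * ((T.card : ℝ) - 1)) := by
  have h1 : ∀ i j : Fin n, (if i = j then (0 : ℝ) else altS G {i, j})
      = ∑ T : Finset (Fin n), coef G T *
          (4 * (if i = j then (0 : ℝ) else
            (if ({i, j} : Finset (Fin n)) ⊆ T then (1 : ℝ) else 0))) := by
    intro i j
    by_cases hij : i = j
    · simp only [if_pos hij, mul_zero, Finset.sum_const_zero]
    · rw [if_neg hij, altS_fourier, Finset.card_pair hij, Finset.mul_sum]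
      refine Finset.sum_congr rfl fun T _ => ?_
      rw [if_neg hij]
      split_ifs <;> ring
  unfold sum2
  simp_rw [h1]
  rw [ex8_comm2, Finset.mul_sum]
  refine Finset.sum_congr rfl fun T _ => ?_
  have h2 : ∑ i : Fin n, ∑ j : Fin n, 4 * (if i = j then (0 : ℝ) else
      (if ({i, j} : Finset (Fin n)) ⊆ T then (1 : ℝ) else 0))
      = 4 * sum2 (fun i j => if ({i, j} : Finset (Fin n)) ⊆ T then (1 : ℝ) else 0) := by
    unfold sum2
    simp_rw [Finset.mul_sum]
  rw [h2, cnt_two]
  ring

/-- the third-order term -/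
theorem ex8_three {n : ℕ} (G : (Fin n → Bool) → ℝ) :
    sum3 (fun i j k => altS G {i, j, k})
      = 8 * ∑ T : Finset (Fin n), coef G T *
          ((T.card : ℝ) * ((T.card : ℝ) - 1) * ((T.card : ℝ) - 2)) := by
  have h1 : ∀ i j k : Fin n, (if i = j ∨ i = k ∨ j = k then (0 : ℝ) else altS G {i, j, k})
      = ∑ T : Finset (Fin n), coef G T *
          (8 * (if i = j ∨ i = k ∨ j = k then (0 : ℝ) else
            (if ({i, j, k} : Finset (Fin n)) ⊆ T then (1 : ℝ) else 0))) := by
    intro i j k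
    by_cases hc : i = j ∨ i = k ∨ j = k
    · simp only [if_pos hc, mul_zero, Finset.sum_const_zero]
    · have hij : i ≠ j := fun h => hc (Or.inl h)
      have hik : i ≠ k := fun h => hc (Or.inr (Or.inl h))
      have hjk : j ≠ k := fun h => hc (Or.inr (Or.inr h))
      have hcard : ({i, j, k} : Finset (Fin n)).card = 3 := by
        rw [Finset.card_insert_of_notMem, Finset.card_pair hjk]
        simp only [Finset.mem_insert, Finset.mem_singleton, not_or]
        exact ⟨hij, hik⟩
      rw [if_neg hc, altS_fourier, hcard, Finset.mul_sum]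
      refine Finset.sum_congr rfl fun T _ => ?_
      rw [if_neg hc]
      split_ifs <;> ring
  unfold sum3
  simp_rw [h1]
  rw [ex8_comm3, Finset.mul_sum]
  refine Finset.sum_congr rfl fun T _ => ?_
  have h2 : ∑ i : Fin n, ∑ j : Fin n, ∑ k : Fin n,
      8 * (if i = j ∨ i = k ∨ j = k then (0 : ℝ) else
        (if ({i, j, k} : Finset (Fin n)) ⊆ T then (1 : ℝ) else 0))
      = 8 * sum3 (fun i j k => if ({i, j, k} : Finset (Fin n)) ⊆ T then (1 : ℝ) else 0) := by
    unfold sum3
    simp_rw [Finset.mul_sum]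
  rw [h2, cnt_three]
  ring

theorem topW_expand {n : ℕ} (G : (Fin n → Bool) → ℝ) :
    topW G = ∑ T : Finset (Fin n), coef G T *
      (35 / 16 - 19 / 16 * (T.card : ℝ) + 1 / 4 * ((T.card : ℝ) * ((T.card : ℝ) - 1))
        - 1 / 48 * ((T.card : ℝ) * ((T.card : ℝ) - 1) * ((T.card : ℝ) - 2))) := by
  unfold topW
  rw [ex8_zero G, ex8_one G, ex8_two G, ex8_three G]
  simp_rw [Finset.mul_sum]
  rw [← Finset.sum_sub_distrib, ← Finset.sum_add_distrib, ← Finset.sum_sub_distrib]
  refine Finset.sum_congr rfl fun T _ => ?_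
  ring

end Vale.Agent.H39
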