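import Vale.Agent.H39.M8.Expand

/-!
TASK M8-IDENT (proved below, statement kept exactly; helper lemmas in this file, names
starting `id8_`).  Black boxes (used as stated):
`topW_expand` (Expand.lean), `coef_starF` (M6/Star.lean:
`coef (starF F) S = -((-1)^S.card * coef F S)`), `id6_sum_card_one` (M6/Identity6.lean:
`∑ S, (if S.card = 1 then g S else 0) = ∑ i, g {i}`).

Claim: if `coef F S = 0` for all `S` with `|S|` odd and `|S| > 7`, then
`2 ∑_i coef F {i} = topW F + topW (starF F)`.

Sketch (as `levelOne_identity6` in M6/Identity6.lean).  By `topW_expand` twice and `coef_starF`,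
`topW F + topW (starF F) = ∑ S, coef F S * φ(|S|) * (1 - (-1)^|S|)`, with
`φ(c) = 35/16 - 19/16 c + 1/4 c (c-1) - 1/48 c (c-1) (c-2)`; show termwise that this summand equals
`if S.card = 1 then 2 * coef F S else 0`: if `|S|` is even, `1 - (-1)^|S| = 0` (`Even.neg_one_pow`);
if `|S|` is odd (`Odd.neg_one_pow`) then `|S| = 1` (`φ = 1`), or `|S| ∈ {3, 5, 7}` (`φ = 0`:
substitute the value of `S.card` and `norm_num`), or `|S| > 7` (`coef F S = 0`).  A convenient way:
`rcases Nat.even_or_odd S.card`, and in the odd case `obtain ⟨m, hm⟩`, then `m = 0, 1, 2, 3` or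
`m ≥ 4` (`interval_cases m` after `by_cases h : 7 < S.card`).
-/

namespace Vale.Agent.H39

open Finset

theorem levelOne_identity8 {n : ℕ} (F : (Fin n → Bool) → ℝ)
    (hdeg : ∀ S : Finset (Fin n), Odd S.card → 7 < S.card → coef F S = 0) :
    2 * ∑ i : Fin n, coef F {i} = topW F + topW (starF F) := by
  have e1 : 2 * ∑ i : Fin n, coef F {i} =
      ∑ S : Finset (Fin n), (if S.card = 1 then 2 * coef F S else 0) := by
    rw [id6_sum_card_one (fun S => 2 * coef F S), Finset.mul_sum]
  rw [e1, topW_expand F, topW_expand (starF F), ← Finset.sum_add_distrib]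
  apply Finset.sum_congr rfl
  intro S _
  rw [coef_starF]
  rcases Nat.even_or_odd S.card with he | ho
  · have h1 : S.card ≠ 1 := by
      intro h
      rw [h] at he
      exact absurd he (by decide)
    rw [if_neg h1, he.neg_one_pow]
    ring
  · rw [ho.neg_one_pow]
    have hc : S.card = 1 ∨ S.card = 3 ∨ S.card = 5 ∨ S.card = 7 ∨ 7 < S.card := by
      obtain ⟨k, hk⟩ := ho
      omega
    rcases hc with h | h | h | h | h
    · rw [if_pos h, h]
      norm_num
      ring
    · rw [if_neg (by omega), h]
      norm_num
    · rw [if_neg (by omega), h]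
      norm_num
    · rw [if_neg (by omega), h]
      norm_num
    · rw [if_neg (by omega), hdeg S ho h]
      ring

end Vale.Agent.H39
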