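import Vale.Agent.H39.M8.Defs

/-!
TASK M8-MAJ7 (closed by seat helper64; statement kept exactly; helper lemma `maj7_int` in this
file).  Majority on seven bits (`maj`, M6/Maj.lean) has level-one sum `35/16`: each
`fhat (maj 7) {i} = 20/64 = 5/16`.

Sketch: exactly as `maj5_sum` in M6/Maj.lean (`maj_fhat`, `maj_bsign`, an integer lemma like
`maj_int5` proved by kernel `decide` over the `128` points; each integer sum is `40`, and
`40 / 2^7 = 5/16`, `7 * 5/16 = 35/16`).  If `decide` is too slow on `Fin 7 → Bool`, see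
`Vale/Agent/H13/GSSeven.lean` / `Vale/Agent/H26/GSFhat.lean` for seven-variable evaluations.
-/

namespace Vale.Agent.H39

open Finset

lemma maj7_int : ∀ i : Fin 7, ∑ x : Fin 7 → Bool,
    (if maj 7 x then -1 else 1 : ℤ) * (if x i then -1 else 1 : ℤ) = 40 := by
  decide +kernel

theorem maj7_sum : ∑ i : Fin 7, fhat (maj 7) {i} = 35 / 16 := by
  have h : ∀ i : Fin 7, fhat (maj 7) {i} = 5 / 16 := by
    intro i
    rw [maj_fhat, maj7_int i]
    norm_num
  rw [Finset.sum_congr rfl fun i _ => h i]
  simp
  norm_num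

end Vale.Agent.H39
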