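import Vale.Agent.H39.M8.Defs

/-!
TASK M8-SENS (done, helper90; statement unchanged; helper lemma `sg_flip`).  Sensitivity is at most the degree, at every point where the value is `1`:
let `G` be sign-valued and antitone (`x ≤ y → G y ≤ G x`: more `true` coordinates, smaller value)
with `coef G S = 0` whenever `d < |S|`.  If `G (ptOf A) = 1` and `G (ptOf (insert t A)) = -1` for
every `t` in a set `T` disjoint from `A`, then `|T| ≤ d`.  (`ptOf U = fun i => decide (i ∈ U)`.)

Sketch (compare `sens_sum_le`, M6/Sens.lean, which is the case `A = ∅`, `d = 6`).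
Suppose `d < T.card`.  Let `z = ptOf A` and `H x = G (flipCube z x)` (`flipCube`, `coef_flip`:
Vale/Agent/H39/LevelOne.lean; `coef_flip G z S : coef (fun x => G (flipCube z x)) S
= (∏ i ∈ S, bsign (z i)) * coef G S`, see its use in M6/Star.lean and M6/Main.lean `unate_sum`),
so `coef H S = 0` whenever `d < |S|`.
For `U ⊆ T`: `flipCube z (ptOf U) = ptOf (A ∪ U)` (coordinatewise `xor`; `A`, `U` disjoint), so
`H (ptOf U) = G (ptOf (A ∪ U))`; this is `1` for `U = ∅` and `-1` for `U ≠ ∅`: pick `t ∈ U`, then
`ptOf (insert t A) ≤ ptOf (A ∪ U)` pointwise, so `G (ptOf (A ∪ U)) ≤ -1`, and the values are `±1`.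
Hence `∑ U ∈ T.powerset, (-1)^U.card * H (ptOf U) = 2 - ∑ U ∈ T.powerset, (-1)^U.card = 2`
(`Finset.sum_powerset_neg_one_pow_card_of_nonempty`, `T ≠ ∅` since `d < T.card`), while
`altsum_fourier H T` (M6/AltSum.lean; `ptOf U` is by definition `fun i => decide (i ∈ U)`) says the
same sum is `2^T.card * ∑ S, if T ⊆ S then coef H S else 0 = 0` (`T ⊆ S` gives `d < S.card`).
Contradiction.
-/

namespace Vale.Agent.H39

open Finset

lemma sg_flip {n : ℕ} (A U : Finset (Fin n)) (h : Disjoint A U) :
    flipCube (ptOf A) (ptOf U) = ptOf (A ∪ U) := by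
  funext i
  unfold flipCube ptOf
  by_cases hA : i ∈ A
  · have hU : i ∉ U := Finset.disjoint_left.mp h hA
    simp [hA, hU]
  · by_cases hU : i ∈ U <;> simp [hA, hU]

theorem sens_gen {n d : ℕ} (G : (Fin n → Bool) → ℝ) (hG : ∀ x, G x = 1 ∨ G x = -1)
    (hmono : Antitone G) (hdeg : ∀ S : Finset (Fin n), d < S.card → coef G S = 0)
    (A T : Finset (Fin n)) (hAT : Disjoint A T) (hA : G (ptOf A) = 1)
    (hT : ∀ t ∈ T, G (ptOf (insert t A)) = -1) : T.card ≤ d := by
  classical
  by_contra hc
  rw [not_le] at hc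
  have hTne : T.Nonempty := by
    rw [← Finset.card_pos]
    omega
  obtain ⟨H, hH⟩ : ∃ H : (Fin n → Bool) → ℝ, H = fun x => G (flipCube (ptOf A) x) := ⟨_, rfl⟩
  have hHdeg : ∀ S : Finset (Fin n), d < S.card → coef H S = 0 := by
    intro S hS
    rw [hH, coef_flip G (ptOf A) S, hdeg S hS, mul_zero]
  have halt := altsum_fourier H T
  have hrhs : (∑ S : Finset (Fin n), if T ⊆ S then coef H S else 0) = 0 := by
    apply Finset.sum_eq_zero
    intro S _
    split_ifs with hTS
    · exact hHdeg S (lt_of_lt_of_le hc (Finset.card_le_card hTS))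
    · rfl
  rw [hrhs, mul_zero] at halt
  have hval : ∀ U ∈ T.powerset,
      H (fun i => decide (i ∈ U)) = if U = ∅ then (1 : ℝ) else -1 := by
    intro U hU
    rw [Finset.mem_powerset] at hU
    have hAU : Disjoint A U := Finset.disjoint_of_subset_right hU hAT
    have hHU : H (fun i => decide (i ∈ U)) = G (ptOf (A ∪ U)) := by
      rw [hH]
      show G (flipCube (ptOf A) (ptOf U)) = _
      rw [sg_flip A U hAU]
    rw [hHU]
    split_ifs with hUe
    · rw [hUe, Finset.union_empty]
      exact hA
    · obtain ⟨t, ht⟩ := Finset.nonempty_iff_ne_empty.mpr hUe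
      have hGt : G (ptOf (insert t A)) = -1 := hT t (hU ht)
      have hle : G (ptOf (A ∪ U)) ≤ G (ptOf (insert t A)) := by
        apply hmono
        intro k
        unfold ptOf
        by_cases hk : k ∈ insert t A
        · have hk' : k ∈ A ∪ U := by
            rcases Finset.mem_insert.mp hk with h | h
            · rw [h]
              exact Finset.mem_union_right _ ht
            · exact Finset.mem_union_left _ h
          simp [hk, hk']
        · simp [hk]
      rcases hG (ptOf (A ∪ U)) with h2 | h2
      · rw [h2, hGt] at hle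
        norm_num at hle
      · exact h2
  have h0 : ∑ U ∈ T.powerset, (-1 : ℝ) ^ U.card = 0 := by
    have h := Finset.sum_powerset_neg_one_pow_card_of_nonempty hTne
    have h' := congrArg (Int.cast : ℤ → ℝ) h
    push_cast at h'
    exact h'
  have hterm3 : ∀ U ∈ T.powerset,
      (-1 : ℝ) ^ U.card * H (fun i => decide (i ∈ U)) =
        -((-1 : ℝ) ^ U.card) + (if U = ∅ then (2 : ℝ) else 0) := by
    intro U hU
    rw [hval U hU]
    split_ifs with hUe
    · rw [hUe]
      norm_num
    · ring
  rw [Finset.sum_congr rfl hterm3, Finset.sum_add_distrib, Finset.sum_neg_distrib, h0,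
    neg_zero, zero_add, Finset.sum_ite_eq', if_pos (Finset.empty_mem_powerset T)] at halt
  norm_num at halt

end Vale.Agent.H39
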