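import Vale.Agent.H39.M8.Core
import Vale.Agent.H39.M8.Alt
import Vale.Agent.H39.M8.SensGen

/-!
TASK M8-TOPLE: `topW_le` is proved below (statement unchanged; helper lemmas `tl8_ptOf_mono`,
`tl8_neg`, `tl8_pos`, `tl8_caseA`, `tl8_caseB`).  Black boxes, used as stated: `core8`
(Core.lean), `altS_one`, `altS_two`, `altS_three` (Alt.lean), `sens_gen` (SensGen.lean), and
Sum.lean (`sum2_congr`, `sum3_congr`, `sum2_mul_left`, `sum3_mul_left`, ...).

Claim: a sign-valued antitone `G` (`x ≤ y → G y ≤ G x`) with `coef G S = 0` for `|S| > 8` has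
`topW G ≤ 35/16`, where (Defs.lean)
`topW G = 35/16 * G (ptOf ∅) - 19/32 * ∑ i, altS G {i} + 1/16 * sum2 (fun i j => altS G {i, j})
          - 1/384 * sum3 (fun i j k => altS G {i, j, k})`.

Sketch.  `ptOf ∅ ≤ x` for every `x`, so `G x ≤ G (ptOf ∅)`.
Case `G (ptOf ∅) = -1`: every value is `-1`; by `altS_one/two/three` all the alternating sums in
`topW` vanish (under `sum2_congr`/`sum3_congr` to `fun _ _ => 0`, whose `sum2`/`sum3` is `0`), so
`topW G = -35/16`.
Case `G (ptOf ∅) = 1`: put `x i = (1 - G (ptOf {i})) / 2`, `v i j = (1 - G (ptOf {i, j})) / 2`,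
`w i j k = (1 - G (ptOf {i, j, k})) / 2` (all in `{0, 1}`).  For distinct indices
`altS G {i} = 2 * x i`, `altS G {i, j} = 2 * (x i + x j - v i j)`,
`altS G {i, j, k} = 2 * (x i + x j + x k - v i j - v i k - v j k + w i j k)`, hence
`topW G = 35/16 - (19/16 * ∑ x - 1/8 * sum2 (..) + 1/192 * sum3 (..))` and `core8 x v w ..` gives
the claim.  Hypotheses of `core8`:
* `hsym`: `{i, j} = {j, i}` (`Finset.pair_comm`);
* `hxv`: `ptOf {i} ≤ ptOf {i, j}`, so `G (ptOf {i, j}) ≤ G (ptOf {i}) = -1`;
* `hw`: if `G (ptOf {i, j, k}) = -1` then `1 - w = 0 ≤` a product of numbers in `{0, 1}`; if it is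
  `1` then (antitone, `ptOf {i, j} ≤ ptOf {i, j, k}` etc.) the three pair values are `1`, all
  `v = 0`, and `1 - w = 1 ≤ 1`;
* `hdeg`: if `x i = 0`, i.e. `G (ptOf {i}) = 1`, then with
  `T = univ.filter (fun j => j ≠ i ∧ G (ptOf {j, i}) = -1)` and `A = {i}`, `sens_gen` (`d = 8`)
  gives `T.card ≤ 8`, and `rowS v i = ∑ j, (if i = j then 0 else v i j) = T.card`
  (each term is `1` if `j ∈ T`, else `0`; `{i, j} = {j, i}`, `{j, i} = insert j {i}` is how the
  literal is read, so `hT` has the right form).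
-/

namespace Vale.Agent.H39

open Finset

theorem tl8_ptOf_mono {n : ℕ} {U V : Finset (Fin n)} (h : U ⊆ V) : ptOf U ≤ ptOf V := by
  intro i
  unfold ptOf
  by_cases hi : i ∈ U
  · simp [hi, h hi]
  · simp [hi]

theorem tl8_neg {n : ℕ} (G : (Fin n → Bool) → ℝ) (hG : ∀ x, G x = 1 ∨ G x = -1)
    (hmono : Antitone G) {U V : Finset (Fin n)} (h : U ⊆ V) (hU : G (ptOf U) = -1) :
    G (ptOf V) = -1 := by
  have hle := hmono (tl8_ptOf_mono h)
  rcases hG (ptOf V) with h1 | h1
  · rw [h1, hU] at hle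
    norm_num at hle
  · exact h1

theorem tl8_pos {n : ℕ} (G : (Fin n → Bool) → ℝ) (hG : ∀ x, G x = 1 ∨ G x = -1)
    (hmono : Antitone G) {U V : Finset (Fin n)} (h : U ⊆ V) (hV : G (ptOf V) = 1) :
    G (ptOf U) = 1 := by
  have hle := hmono (tl8_ptOf_mono h)
  rcases hG (ptOf U) with h1 | h1
  · exact h1
  · rw [h1, hV] at hle
    norm_num at hle

theorem tl8_caseA {n : ℕ} (G : (Fin n → Bool) → ℝ) (hG : ∀ x, G x = 1 ∨ G x = -1)
    (hmono : Antitone G) (h0 : G (ptOf ∅) = -1) : topW G ≤ 35 / 16 := by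
  have hall : ∀ U : Finset (Fin n), G (ptOf U) = -1 :=
    fun U => tl8_neg G hG hmono (Finset.empty_subset U) h0
  have h1 : ∀ i : Fin n, altS G {i} = 0 := by
    intro i
    rw [altS_one]
    simp only [hall]
    ring
  have h2 : sum2 (fun i j => altS G {i, j}) = 0 := by
    rw [sum2_congr _ (fun _ _ => 0) (fun i j hij => by
      rw [altS_two G i j hij]
      simp only [hall]
      ring)]
    simp [sum2]
  have h3 : sum3 (fun i j k => altS G {i, j, k}) = 0 := by
    rw [sum3_congr _ (fun _ _ _ => 0) (fun i j k hij hik hjk => by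
      rw [altS_three G i j k hij hik hjk]
      simp only [hall]
      ring)]
    simp [sum3]
  unfold topW
  rw [h2, h3, h0]
  simp only [h1, Finset.sum_const_zero]
  norm_num

theorem tl8_caseB {n : ℕ} (G : (Fin n → Bool) → ℝ) (hG : ∀ x, G x = 1 ∨ G x = -1)
    (hmono : Antitone G) (hdeg : ∀ S : Finset (Fin n), 8 < S.card → coef G S = 0)
    (h0 : G (ptOf ∅) = 1) : topW G ≤ 35 / 16 := by
  classical
  obtain ⟨x, xdef⟩ : ∃ x : Fin n → ℝ, ∀ i, x i = (1 - G (ptOf {i})) / 2 :=
    ⟨fun i => (1 - G (ptOf {i})) / 2, fun i => rfl⟩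
  obtain ⟨v, vdef⟩ : ∃ v : Fin n → Fin n → ℝ, ∀ i j, v i j = (1 - G (ptOf {i, j})) / 2 :=
    ⟨fun i j => (1 - G (ptOf {i, j})) / 2, fun i j => rfl⟩
  obtain ⟨w, wdef⟩ : ∃ w : Fin n → Fin n → Fin n → ℝ,
      ∀ i j k, w i j k = (1 - G (ptOf {i, j, k})) / 2 :=
    ⟨fun i j k => (1 - G (ptOf {i, j, k})) / 2, fun i j k => rfl⟩
  have hx01 : ∀ i, x i = 0 ∨ x i = 1 := by
    intro i
    rw [xdef]
    rcases hG (ptOf {i}) with h | h
    · left
      rw [h]
      norm_num
    · right
      rw [h]
      norm_num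
  have hv01 : ∀ i j, v i j = 0 ∨ v i j = 1 := by
    intro i j
    rw [vdef]
    rcases hG (ptOf {i, j}) with h | h
    · left
      rw [h]
      norm_num
    · right
      rw [h]
      norm_num
  have hsym : ∀ i j, v i j = v j i := by
    intro i j
    rw [vdef, vdef, Finset.pair_comm]
  have hxv : ∀ i j, i ≠ j → x i = 1 → v i j = 1 := by
    intro i j _ hxi
    rw [xdef] at hxi
    have hGi : G (ptOf {i}) = -1 := by linarith
    have hsub : ({i} : Finset (Fin n)) ⊆ {i, j} := by
      intro t ht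
      simp only [Finset.mem_singleton] at ht
      simp [ht]
    rw [vdef, tl8_neg G hG hmono hsub hGi]
    norm_num
  have hw : ∀ i j k, i ≠ j → i ≠ k → j ≠ k →
      1 - w i j k ≤ (1 - v i j) * (1 - v i k) * (1 - v j k) := by
    intro i j k _ _ _
    rcases hG (ptOf {i, j, k}) with h | h
    · have s1 : ({i, j} : Finset (Fin n)) ⊆ {i, j, k} := by
        intro t ht
        simp only [Finset.mem_insert, Finset.mem_singleton] at ht ⊢
        tauto
      have s2 : ({i, k} : Finset (Fin n)) ⊆ {i, j, k} := by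
        intro t ht
        simp only [Finset.mem_insert, Finset.mem_singleton] at ht ⊢
        tauto
      have s3 : ({j, k} : Finset (Fin n)) ⊆ {i, j, k} := by
        intro t ht
        simp only [Finset.mem_insert, Finset.mem_singleton] at ht ⊢
        tauto
      rw [wdef, vdef, vdef, vdef, h, tl8_pos G hG hmono s1 h, tl8_pos G hG hmono s2 h,
        tl8_pos G hG hmono s3 h]
      norm_num
    · rw [wdef, h]
      have a1 : 0 ≤ 1 - v i j := by
        rcases hv01 i j with e | e <;> rw [e] <;> norm_num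
      have a2 : 0 ≤ 1 - v i k := by
        rcases hv01 i k with e | e <;> rw [e] <;> norm_num
      have a3 : 0 ≤ 1 - v j k := by
        rcases hv01 j k with e | e <;> rw [e] <;> norm_num
      have hprod := mul_nonneg (mul_nonneg a1 a2) a3
      linarith
  have hdeg8 : ∀ i, x i = 0 → rowS v i ≤ 8 := by
    intro i hxi
    rw [xdef] at hxi
    have hGi : G (ptOf {i}) = 1 := by linarith
    have hcard := sens_gen (d := 8) G hG hmono hdeg {i}
      (Finset.univ.filter (fun j : Fin n => j ≠ i ∧ G (ptOf {j, i}) = -1))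
      (Finset.disjoint_singleton_left.mpr (by simp)) hGi
      (fun t ht => (Finset.mem_filter.mp ht).2.2)
    have hrow : rowS v i
        = ((Finset.univ.filter (fun j : Fin n => j ≠ i ∧ G (ptOf {j, i}) = -1)).card : ℝ) := by
      rw [← Finset.sum_boole]
      unfold rowS
      refine Finset.sum_congr rfl (fun j _ => ?_)
      by_cases hij : i = j
      · subst hij
        simp
      · rw [if_neg hij, vdef]
        rcases hG (ptOf {i, j}) with h | h
        · have h' : G (ptOf {j, i}) = 1 := by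
            rw [Finset.pair_comm]
            exact h
          rw [h, if_neg (by
            rintro ⟨_, hc⟩
            rw [h'] at hc
            norm_num at hc)]
          norm_num
        · have h' : G (ptOf {j, i}) = -1 := by
            rw [Finset.pair_comm]
            exact h
          rw [h, if_pos ⟨fun hc => hij hc.symm, h'⟩]
          norm_num
    rw [hrow]
    exact_mod_cast hcard
  have hcore := core8 x v w hx01 hv01 hsym hxv hw hdeg8
  have e1 : ∑ i : Fin n, altS G {i} = 2 * ∑ i : Fin n, x i := by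
    rw [Finset.mul_sum]
    refine Finset.sum_congr rfl (fun i _ => ?_)
    rw [altS_one, h0, xdef]
    ring
  have e2 : sum2 (fun i j => altS G {i, j}) = 2 * sum2 (fun i j => x i + x j - v i j) := by
    rw [← sum2_mul_left]
    refine sum2_congr _ _ (fun i j hij => ?_)
    rw [altS_two G i j hij, h0]
    simp only [xdef, vdef]
    ring
  have e3 : sum3 (fun i j k => altS G {i, j, k})
      = 2 * sum3 (fun i j k => x i + x j + x k - v i j - v i k - v j k + w i j k) := by
    rw [← sum3_mul_left]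
    refine sum3_congr _ _ (fun i j k hij hik hjk => ?_)
    rw [altS_three G i j k hij hik hjk, h0]
    simp only [xdef, vdef, wdef]
    ring
  unfold topW
  rw [e1, e2, e3, h0]
  linarith

theorem topW_le {n : ℕ} (G : (Fin n → Bool) → ℝ) (hG : ∀ x, G x = 1 ∨ G x = -1)
    (hmono : Antitone G) (hdeg : ∀ S : Finset (Fin n), 8 < S.card → coef G S = 0) :
    topW G ≤ 35 / 16 := by
  rcases hG (ptOf ∅) with h0 | h0
  · exact tl8_caseB G hG hmono hdeg h0
  · exact tl8_caseA G hG hmono h0

end Vale.Agent.H39
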