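import Vale.Agent.H39.M8.Ident
import Vale.Agent.H39.M8.TopLe
import Vale.Agent.H39.M8.Maj7

/-!
# The majority bound for monotone and unate functions of degree at most eight (seat H39)

A monotone Boolean function of degree at most `8` has level-one sum at most `35/16` (the value of
majority on seven bits); the same bound holds for the sum of absolute values when the function
becomes monotone after negating some of its inputs (unate functions).

Proof.  `2 ∑_i F^({i}) = topW F + topW (starF F)` (`levelOne_identity8`); for a sign-valued
antitone `G` of degree at most `8`, `topW G ≤ 35/16` (`topW_le`); `starF F` is again antitone of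
degree at most `8`.
-/

namespace Vale.Agent.H39

open Finset

/-- Degree at most eight, real form. -/
theorem mono8_core {n : ℕ} (F : (Fin n → Bool) → ℝ) (hF : ∀ x, F x = 1 ∨ F x = -1)
    (hmono : Antitone F) (hdeg : ∀ S : Finset (Fin n), 8 < S.card → coef F S = 0) :
    ∑ i : Fin n, coef F {i} ≤ 35 / 16 := by
  have hid := levelOne_identity8 F (fun S hodd h7 => hdeg S (by
    obtain ⟨k, hk⟩ := hodd
    omega))
  have h1 := topW_le F hF hmono hdeg
  have hdeg' : ∀ S : Finset (Fin n), 8 < S.card → coef (starF F) S = 0 := by
    intro S hS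
    rw [coef_starF, hdeg S hS, mul_zero, neg_zero]
  have h2 := topW_le (starF F) (starF_val F hF) (starF_antitone F hmono) hdeg'
  linarith

/-- A monotone Boolean function of degree at most `8` has level-one sum at most `35/16`. -/
theorem mono8 {n : ℕ} (f : (Fin n → Bool) → Bool) (hf : Monotone f)
    (hdeg : ∀ S : Finset (Fin n), 8 < S.card → fhat f S = 0) :
    ∑ i : Fin n, fhat f {i} ≤ 35 / 16 :=
  mono8_core (fun x => bsign (f x)) (bsign_val f) (bsign_antitone f hf) hdeg

/-- A Boolean function of degree at most `8` that is monotone after negating the inputs marked by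
`z` has `∑_i |f^({i})| ≤ 35/16`. -/
theorem unate8 {n : ℕ} (f : (Fin n → Bool) → Bool) (z : Fin n → Bool)
    (hf : Monotone (fun x : Fin n → Bool => f (fun i => xor (x i) (z i))))
    (hdeg : ∀ S : Finset (Fin n), 8 < S.card → fhat f S = 0) :
    ∑ i : Fin n, |fhat f {i}| ≤ 35 / 16 := by
  obtain ⟨hg, hsum⟩ := unate_sum f z hf
  rw [hsum]
  apply mono8 _ hf
  intro S hS
  rw [hg, hdeg S hS, mul_zero]

/-- Majority on seven bits is monotone with level-one sum `35/16`. -/
theorem exists_mono_thirtyfive_sixteenths :
    ∃ f : (Fin 7 → Bool) → Bool, Monotone f ∧ ∑ i : Fin 7, fhat f {i} = 35 / 16 :=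
  ⟨maj 7, maj_monotone 7, maj7_sum⟩

end Vale.Agent.H39
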