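import Vale.Agent.H39.M8.Defs

/-!
TASK M8-SUM (replace every `sorry`, keep the statements exactly; helper lemmas in this file, names
starting `sm_`).  Elementary rules for `sum2`, `sum3`, `rowS` (Defs.lean):
`sum2 f = ∑ i, ∑ j, if i = j then 0 else f i j`,
`sum3 f = ∑ i, ∑ j, ∑ k, if i = j ∨ i = k ∨ j = k then 0 else f i j k`,
`rowS q i = ∑ j, if i = j then 0 else q i j`.

Sketch.  Unfold; congruence / monotonicity: `Finset.sum_congr`, `Finset.sum_le_sum`, split the
`if`.  Linearity: `Finset.sum_add_distrib`, `Finset.mul_sum`, with `split_ifs`/`ite` arithmetic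
(`mul_ite`, `mul_zero`).  Swaps: `Finset.sum_comm` on the two relevant sums and rewriting the
condition (`or_comm`, `eq_comm`, `or_left_comm`).
-/

namespace Vale.Agent.H39

open Finset

theorem sum2_rowS {n : ℕ} (f : Fin n → Fin n → ℝ) : sum2 f = ∑ i : Fin n, rowS f i := by
  rfl

theorem sum2_congr {n : ℕ} (f g : Fin n → Fin n → ℝ) (h : ∀ i j, i ≠ j → f i j = g i j) :
    sum2 f = sum2 g := by
  simp only [sum2]
  apply Finset.sum_congr rfl
  intro i _
  apply Finset.sum_congr rfl
  intro j _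
  by_cases hij : i = j
  · rw [if_pos hij, if_pos hij]
  · rw [if_neg hij, if_neg hij, h i j hij]

theorem sum2_sub {n : ℕ} (f g : Fin n → Fin n → ℝ) :
    sum2 (fun i j => f i j - g i j) = sum2 f - sum2 g := by
  simp only [sum2]
  rw [← Finset.sum_sub_distrib]
  apply Finset.sum_congr rfl
  intro i _
  rw [← Finset.sum_sub_distrib]
  apply Finset.sum_congr rfl
  intro j _
  by_cases hij : i = j
  · rw [if_pos hij, if_pos hij, if_pos hij, sub_zero]
  · rw [if_neg hij, if_neg hij, if_neg hij]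

theorem sum2_mul_left {n : ℕ} (c : ℝ) (f : Fin n → Fin n → ℝ) :
    sum2 (fun i j => c * f i j) = c * sum2 f := by
  simp only [sum2]
  rw [Finset.mul_sum]
  apply Finset.sum_congr rfl
  intro i _
  rw [Finset.mul_sum]
  apply Finset.sum_congr rfl
  intro j _
  by_cases hij : i = j
  · rw [if_pos hij, if_pos hij, mul_zero]
  · rw [if_neg hij, if_neg hij]

theorem sum3_congr {n : ℕ} (f g : Fin n → Fin n → Fin n → ℝ)
    (h : ∀ i j k, i ≠ j → i ≠ k → j ≠ k → f i j k = g i j k) : sum3 f = sum3 g := by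
  simp only [sum3]
  apply Finset.sum_congr rfl
  intro i _
  apply Finset.sum_congr rfl
  intro j _
  apply Finset.sum_congr rfl
  intro k _
  by_cases hc : i = j ∨ i = k ∨ j = k
  · rw [if_pos hc, if_pos hc]
  · rw [if_neg hc, if_neg hc]
    obtain ⟨h1, h23⟩ := not_or.1 hc
    obtain ⟨h2, h3⟩ := not_or.1 h23
    exact h i j k h1 h2 h3

theorem sum3_mono {n : ℕ} (f g : Fin n → Fin n → Fin n → ℝ)
    (h : ∀ i j k, i ≠ j → i ≠ k → j ≠ k → f i j k ≤ g i j k) : sum3 f ≤ sum3 g := by
  simp only [sum3]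
  apply Finset.sum_le_sum
  intro i _
  apply Finset.sum_le_sum
  intro j _
  apply Finset.sum_le_sum
  intro k _
  by_cases hc : i = j ∨ i = k ∨ j = k
  · rw [if_pos hc, if_pos hc]
  · rw [if_neg hc, if_neg hc]
    obtain ⟨h1, h23⟩ := not_or.1 hc
    obtain ⟨h2, h3⟩ := not_or.1 h23
    exact h i j k h1 h2 h3

theorem sum3_add {n : ℕ} (f g : Fin n → Fin n → Fin n → ℝ) :
    sum3 (fun i j k => f i j k + g i j k) = sum3 f + sum3 g := by
  simp only [sum3]
  rw [← Finset.sum_add_distrib]
  apply Finset.sum_congr rfl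
  intro i _
  rw [← Finset.sum_add_distrib]
  apply Finset.sum_congr rfl
  intro j _
  rw [← Finset.sum_add_distrib]
  apply Finset.sum_congr rfl
  intro k _
  by_cases hc : i = j ∨ i = k ∨ j = k
  · rw [if_pos hc, if_pos hc, if_pos hc, add_zero]
  · rw [if_neg hc, if_neg hc, if_neg hc]

theorem sum3_sub {n : ℕ} (f g : Fin n → Fin n → Fin n → ℝ) :
    sum3 (fun i j k => f i j k - g i j k) = sum3 f - sum3 g := by
  simp only [sum3]
  rw [← Finset.sum_sub_distrib]
  apply Finset.sum_congr rfl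
  intro i _
  rw [← Finset.sum_sub_distrib]
  apply Finset.sum_congr rfl
  intro j _
  rw [← Finset.sum_sub_distrib]
  apply Finset.sum_congr rfl
  intro k _
  by_cases hc : i = j ∨ i = k ∨ j = k
  · rw [if_pos hc, if_pos hc, if_pos hc, sub_zero]
  · rw [if_neg hc, if_neg hc, if_neg hc]

theorem sum3_mul_left {n : ℕ} (c : ℝ) (f : Fin n → Fin n → Fin n → ℝ) :
    sum3 (fun i j k => c * f i j k) = c * sum3 f := by
  simp only [sum3]
  rw [Finset.mul_sum]
  apply Finset.sum_congr rfl
  intro i _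
  rw [Finset.mul_sum]
  apply Finset.sum_congr rfl
  intro j _
  rw [Finset.mul_sum]
  apply Finset.sum_congr rfl
  intro k _
  by_cases hc : i = j ∨ i = k ∨ j = k
  · rw [if_pos hc, if_pos hc, mul_zero]
  · rw [if_neg hc, if_neg hc]

theorem sum3_swap12 {n : ℕ} (f : Fin n → Fin n → Fin n → ℝ) :
    sum3 (fun i j k => f j i k) = sum3 f := by
  simp only [sum3]
  rw [Finset.sum_comm]
  apply Finset.sum_congr rfl
  intro a _
  apply Finset.sum_congr rfl
  intro b _
  apply Finset.sum_congr rfl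
  intro k _
  have hiff : (b = a ∨ b = k ∨ a = k) ↔ (a = b ∨ a = k ∨ b = k) := by
    constructor
    · rintro (h | h | h)
      · exact Or.inl h.symm
      · exact Or.inr (Or.inr h)
      · exact Or.inr (Or.inl h)
    · rintro (h | h | h)
      · exact Or.inl h.symm
      · exact Or.inr (Or.inr h)
      · exact Or.inr (Or.inl h)
  by_cases hc : a = b ∨ a = k ∨ b = k
  · rw [if_pos hc, if_pos (hiff.2 hc)]
  · rw [if_neg hc, if_neg (fun h => hc (hiff.1 h))]

theorem sum3_swap23 {n : ℕ} (f : Fin n → Fin n → Fin n → ℝ) :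
    sum3 (fun i j k => f i k j) = sum3 f := by
  simp only [sum3]
  apply Finset.sum_congr rfl
  intro i _
  rw [Finset.sum_comm]
  apply Finset.sum_congr rfl
  intro a _
  apply Finset.sum_congr rfl
  intro b _
  have hiff : (i = b ∨ i = a ∨ b = a) ↔ (i = a ∨ i = b ∨ a = b) := by
    constructor
    · rintro (h | h | h)
      · exact Or.inr (Or.inl h)
      · exact Or.inl h
      · exact Or.inr (Or.inr h.symm)
    · rintro (h | h | h)
      · exact Or.inr (Or.inl h)
      · exact Or.inl h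
      · exact Or.inr (Or.inr h.symm)
  by_cases hc : i = a ∨ i = b ∨ a = b
  · rw [if_pos hc, if_pos (hiff.2 hc)]
  · rw [if_neg hc, if_neg (fun h => hc (hiff.1 h))]

end Vale.Agent.H39
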